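import Vale.Agent.P075.Bdl.B1

/-!
# Second order bounds for the log-determinant energy `GX (Aᵀ A)` as a function of `A`

(A copy of helper804's file `H804/Tan.lean`, in this namespace.)
-/

set_option linter.unusedSectionVars false

namespace Vale.Agent.P141.PL.H978

open Matrix Vale.Agent.P075

variable {m n : Type*} [Fintype m] [DecidableEq m] [Fintype n] [DecidableEq n]

/-- concavity tangent of the log-determinant -/
theorem ld_tangent {X X' : Matrix n n ℝ} (hX : X.PosSemidef) (hX' : X'.PosSemidef) :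
    ld X' ≤ ld X + (res X * (X' - X)).trace := by
  have h := det_mul_le_exp (res_psd hX) (posDef_one_add hX').posSemidef
  have e : (res X * (1 + X')).trace - (Fintype.card n : ℝ) = (res X * (X' - X)).trace := by
    have e1 : res X * (1 + X') = res X * (X' - X) + res X * (1 + X) := by noncomm_ring
    rw [e1, trace_add, res_mul_one_add hX, trace_one]; ring
  rw [e] at h
  have hpos1 : 0 < (res X).det := (res_posDef hX).det_pos
  have hpos2 : 0 < (1 + X').det := det_pos_one_add hX'
  have hlog := Real.log_le_log (mul_pos hpos1 hpos2) h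
  rw [Real.log_exp, Real.log_mul hpos1.ne' hpos2.ne', log_det_res hX] at hlog
  have : Real.log (1 + X').det = ld X' := rfl
  linarith

omit [DecidableEq m] [DecidableEq n] in
theorem gram_psd (A : Matrix m n ℝ) : (Aᵀ * A).PosSemidef := by
  have := Matrix.posSemidef_conjTranspose_mul_self A
  rwa [conjTranspose_eq_transpose_of_trivial] at this

omit [DecidableEq m] [DecidableEq n] in
theorem gram_psd' (A : Matrix m n ℝ) : (A * Aᵀ).PosSemidef := by
  have := Matrix.posSemidef_self_mul_conjTranspose A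
  rwa [conjTranspose_eq_transpose_of_trivial] at this

/-- push-through identity, rectangular -/
theorem push_rect (A : Matrix m n ℝ) : A * res (Aᵀ * A) = res (A * Aᵀ) * A := by
  have h1 := one_add_mul_res (gram_psd A)
  have h2 := res_mul_one_add (gram_psd' A)
  have h3 : (1 + A * Aᵀ) * A = A * (1 + Aᵀ * A) := by
    rw [Matrix.add_mul, Matrix.mul_add, Matrix.one_mul, Matrix.mul_one, Matrix.mul_assoc]
  calc A * res (Aᵀ * A) = (res (A * Aᵀ) * (1 + A * Aᵀ)) * A * res (Aᵀ * A) := by
        rw [h2, Matrix.one_mul]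
    _ = res (A * Aᵀ) * ((1 + A * Aᵀ) * A) * res (Aᵀ * A) := by
        simp only [Matrix.mul_assoc]
    _ = res (A * Aᵀ) * A * ((1 + Aᵀ * A) * res (Aᵀ * A)) := by
        rw [h3]; simp only [Matrix.mul_assoc]
    _ = res (A * Aᵀ) * A := by rw [h1, Matrix.mul_one]

/-- `A (1 + AᵀA)⁻¹ Aᵀ = φ(A Aᵀ)` -/
theorem phi_row (A : Matrix m n ℝ) : A * res (Aᵀ * A) * Aᵀ = phi (A * Aᵀ) := by
  rw [push_rect, Matrix.mul_assoc, res_mul (gram_psd' A), phi]

/-- the linear part of the energy at `A` -/
noncomputable def dE (A B : Matrix m n ℝ) : ℝ := 2 * (phi (Aᵀ * A) * (Aᵀ * B)).trace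

omit [DecidableEq m] [DecidableEq n] in
theorem gram_add (A B : Matrix m n ℝ) :
    (A + B)ᵀ * (A + B) = Aᵀ * A + (Aᵀ * B + Bᵀ * A) + Bᵀ * B := by
  rw [transpose_add, Matrix.add_mul, Matrix.mul_add, Matrix.mul_add]
  abel

omit [DecidableEq m] in
theorem tr_symm_mul {W : Matrix n n ℝ} (hW : Wᵀ = W) (A B : Matrix m n ℝ) :
    (W * (Bᵀ * A)).trace = (W * (Aᵀ * B)).trace := by
  rw [← trace_transpose, transpose_mul, transpose_mul, transpose_transpose, hW, trace_mul_comm]

/-- lower bound -/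
theorem GX_lower (A B : Matrix m n ℝ) :
    GX (Aᵀ * A) + dE A B ≤ GX ((A + B)ᵀ * (A + B)) := by
  have hX := gram_psd A
  have h := ld_tangent hX (gram_psd (A + B))
  have hs := tr_symm_mul (res_symm hX) A B
  have h0 := trace_mul_le_left (gram_psd B) (one_sub_res_psd hX)
  rw [Matrix.one_mul] at h0
  have e1 : (res (Aᵀ * A) * ((A + B)ᵀ * (A + B) - Aᵀ * A)).trace
      = 2 * (res (Aᵀ * A) * (Aᵀ * B)).trace + (res (Aᵀ * A) * (Bᵀ * B)).trace := by
    have : (A + B)ᵀ * (A + B) - Aᵀ * A = Aᵀ * B + Bᵀ * A + Bᵀ * B := by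
      rw [gram_add]; abel
    rw [this, Matrix.mul_add, Matrix.mul_add, trace_add, trace_add, hs]; ring
  have e2 : ((A + B)ᵀ * (A + B)).trace = (Aᵀ * A).trace + 2 * (Aᵀ * B).trace
      + (Bᵀ * B).trace := by
    rw [gram_add, trace_add, trace_add, trace_add]
    have : (Bᵀ * A).trace = (Aᵀ * B).trace := by
      rw [← trace_transpose, transpose_mul, transpose_transpose]
    rw [this]; ring
  rw [e1] at h
  rw [GX, GX, e2, dE, phi, Matrix.sub_mul, trace_sub, Matrix.one_mul]
  linarith

/-- the resolvent of a Gram matrix is a minimum of quadratic expressions -/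
theorem res_le_kalman (M : Matrix n m ℝ) (C : Matrix m n ℝ) :
    ((1 - M * C) * (1 - M * C)ᵀ + M * Mᵀ - res (Cᵀ * C)).PosSemidef := by
  have hX' := gram_psd C
  set X' := Cᵀ * C with hX'd
  have hR := gram_psd' C
  set M' : Matrix n m ℝ := res X' * Cᵀ with hM'
  have hs' : (res X')ᵀ = res X' := res_symm hX'
  have f1 : M' * (1 + C * Cᵀ) = Cᵀ := by
    have : Cᵀ * (1 + C * Cᵀ) = (1 + X') * Cᵀ := by
      rw [Matrix.mul_add, Matrix.add_mul, Matrix.mul_one, Matrix.one_mul, hX'd,
        Matrix.mul_assoc]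
    rw [hM', Matrix.mul_assoc, this, ← Matrix.mul_assoc, res_mul_one_add hX', Matrix.one_mul]
  have f2 : (1 + C * Cᵀ) * M'ᵀ = C := by
    have := congrArg transpose f1
    rw [transpose_mul, transpose_transpose, transpose_add, transpose_one, transpose_mul,
      transpose_transpose] at this
    exact this
  have f3 : M' * C = 1 - res X' := by
    rw [hM', Matrix.mul_assoc, ← hX'd, res_mul hX']
  have e : (1 - M * C) * (1 - M * C)ᵀ + M * Mᵀ - res X'
      = (M - M') * (1 + C * Cᵀ) * (M - M')ᵀ := by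
    have g1 : (M - M') * (1 + C * Cᵀ) * (M - M')ᵀ
        = M * (1 + C * Cᵀ) * Mᵀ - (M' * (1 + C * Cᵀ)) * Mᵀ
          - M * ((1 + C * Cᵀ) * M'ᵀ) + M' * ((1 + C * Cᵀ) * M'ᵀ) := by
      rw [transpose_sub]
      simp only [Matrix.mul_sub, Matrix.sub_mul, Matrix.mul_assoc]
      abel
    rw [g1, f1, f2, f3]
    simp only [transpose_sub, transpose_one, transpose_mul, Matrix.mul_sub, Matrix.sub_mul,
      Matrix.mul_add, Matrix.add_mul, Matrix.mul_one, Matrix.one_mul, Matrix.mul_assoc]
    abel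
  rw [e]
  exact psd_conj (posDef_one_add hR).posSemidef _

/-- upper bound -/
theorem GX_upper (A B : Matrix m n ℝ) :
    GX ((A + B)ᵀ * (A + B)) ≤ GX (Aᵀ * A) + dE A B + 2 * (Bᵀ * B).trace := by
  have hX := gram_psd A
  have hX' := gram_psd (A + B)
  set X := Aᵀ * A with hXd
  set A' := A + B with hA'
  set X' := A'ᵀ * A' with hX'd
  set W := res X with hW
  have hWs : Wᵀ = W := res_symm hX
  set M : Matrix n m ℝ := W * Aᵀ with hM
  set Q : Matrix n n ℝ := (1 - M * A') * (1 - M * A')ᵀ + M * Mᵀ with hQ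
  have hQ1 : (Q - res X').PosSemidef := res_le_kalman M A'
  -- determinant inequality
  have h := det_mul_le_exp (posDef_one_add hX).posSemidef (res_psd hX')
  have hpos1 : 0 < (1 + X).det := det_pos_one_add hX
  have hpos2 : 0 < (res X').det := (res_posDef hX').det_pos
  have hlog := Real.log_le_log (mul_pos hpos1 hpos2) h
  rw [Real.log_exp, Real.log_mul hpos1.ne' hpos2.ne', log_det_res hX'] at hlog
  have hle : ((1 + X) * res X').trace ≤ ((1 + X) * Q).trace :=
    trace_mul_le_right (posDef_one_add hX).posSemidef hQ1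
  -- trace of `(1+X) Q`
  have hWS : W * (1 + X) = 1 := res_mul_one_add hX
  have hSW : (1 + X) * W = 1 := one_add_mul_res hX
  have hMA : M * A = 1 - W := by rw [hM, Matrix.mul_assoc, ← hXd, hW, res_mul hX]
  have hMM : M * Mᵀ = W - W * W := by
    rw [hM, transpose_mul, transpose_transpose, hWs]
    have : W * Aᵀ * (A * W) = W * X * W := by simp only [hXd, Matrix.mul_assoc]
    rw [this, hW, ← res_sub_sq hX]
  have hQe : Q = W - W * (M * B)ᵀ - (M * B) * W + (M * B) * (M * B)ᵀ := by
    have h1 : 1 - M * A' = W - M * B := by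
      rw [hA', Matrix.mul_add, hMA]; abel
    rw [hQ, h1, hMM, transpose_sub, hWs, Matrix.sub_mul, Matrix.mul_sub, Matrix.mul_sub]
    abel
  have hpl : (Mᵀ * (1 + X) * M) = phi (A * Aᵀ) := by
    rw [← phi_row, hM, transpose_mul, transpose_transpose, hWs]
    have : A * W * (1 + X) * (W * Aᵀ) = A * (W * (1 + X)) * W * Aᵀ := by
      simp only [Matrix.mul_assoc]
    rw [this, hWS, Matrix.mul_one]
  have htr : ((1 + X) * Q).trace = (Fintype.card n : ℝ) - 2 * (M * B).trace
      + (phi (A * Aᵀ) * (B * Bᵀ)).trace := by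
    have t1 : ((1 + X) * (W * (M * B)ᵀ)).trace = (M * B).trace := by
      rw [← Matrix.mul_assoc, hSW, Matrix.one_mul, trace_transpose]
    have t2 : ((1 + X) * ((M * B) * W)).trace = (M * B).trace := by
      rw [trace_mul_comm, Matrix.mul_assoc, hWS, Matrix.mul_one]
    have t3 : ((1 + X) * ((M * B) * (M * B)ᵀ)).trace = (phi (A * Aᵀ) * (B * Bᵀ)).trace := by
      rw [transpose_mul, ← hpl]
      have : (1 + X) * (M * B * (Bᵀ * Mᵀ)) = ((1 + X) * M * B * Bᵀ) * Mᵀ := by
        simp only [Matrix.mul_assoc]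
      rw [this, trace_mul_comm]
      simp only [Matrix.mul_assoc]
    rw [hQe, Matrix.mul_add, Matrix.mul_sub, Matrix.mul_sub, trace_add, trace_sub, trace_sub,
      t1, t2, t3, hSW, trace_one]
    ring
  have hphi : (phi (A * Aᵀ) * (B * Bᵀ)).trace ≤ (B * Bᵀ).trace := by
    have := trace_mul_le_left (gram_psd' B) (one_sub_phi_psd (gram_psd' A))
    rwa [Matrix.one_mul] at this
  have hBB : (B * Bᵀ).trace = (Bᵀ * B).trace := trace_mul_comm _ _
  have hl1 : Real.log (1 + X).det = ld X := rfl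
  have e2 : (A'ᵀ * A').trace = X.trace + 2 * (Aᵀ * B).trace + (Bᵀ * B).trace := by
    rw [hA', gram_add, trace_add, trace_add, trace_add]
    have : (Bᵀ * A).trace = (Aᵀ * B).trace := by
      rw [← trace_transpose, transpose_mul, transpose_transpose]
    rw [this]; ring
  have e3 : (M * B).trace = (W * (Aᵀ * B)).trace := by rw [hM, Matrix.mul_assoc]
  rw [GX, GX, hX'd, e2, dE, phi, Matrix.sub_mul, trace_sub, Matrix.one_mul, ← hX'd, ← hW]
  rw [e3] at htr
  linarith

theorem dE_add (A B C : Matrix m n ℝ) : dE A (B + C) = dE A B + dE A C := by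
  rw [dE, dE, dE, Matrix.mul_add, Matrix.mul_add, trace_add]; ring

theorem dE_smul (c : ℝ) (A B : Matrix m n ℝ) : dE A (c • B) = c * dE A B := by
  rw [dE, dE, Matrix.mul_smul, Matrix.mul_smul, trace_smul, smul_eq_mul]; ring

end Vale.Agent.P141.PL.H978
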