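import Vale.Agent.P141.PL.H588.Defs
import Vale.Agent.P141.PL.H103.Tang2
import Vale.Agent.P141.PL.H978.TanG

/-!
# P141, block B4: summed two-sided tangents of the energies `en` and of the mixed energies `Mk`

`Tang Q c Φ`: at every point `f` there is a linear form `l` with
`|Φ (f + g) - Φ f - l g| ≤ c Q g` for all `g`.
-/

namespace Vale.Agent.P141.PL.H978

open Finset Matrix Vale.Agent.P075 Vale.Agent.P141.PL Vale.Agent.P141.PL.H588

/-! ### abstract part -/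

section abs

variable {V : Type*} [AddCommGroup V] [Module ℝ V]

/-- two-sided quadratic tangents -/
def Tang (Q : V → ℝ) (c : ℝ) (Φ : V → ℝ) : Prop :=
  ∀ f, ∃ l : V →ₗ[ℝ] ℝ, ∀ g, |Φ (f + g) - Φ f - l g| ≤ c * Q g

variable {Q Q₁ Q₂ : V → ℝ} {c c₁ c₂ : ℝ} {Φ Φ₁ Φ₂ : V → ℝ}

theorem Tang.zero (hQ : ∀ g, 0 ≤ Q g) (hc : 0 ≤ c) : Tang Q c (fun _ : V => (0 : ℝ)) := by
  intro f
  refine ⟨0, fun g => ?_⟩
  simpa using mul_nonneg hc (hQ g)

theorem Tang.mono (h : Tang Q₁ c₁ Φ) (hle : ∀ g, c₁ * Q₁ g ≤ c₂ * Q₂ g) : Tang Q₂ c₂ Φ := by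
  intro f
  obtain ⟨l, hl⟩ := h f
  exact ⟨l, fun g => (hl g).trans (hle g)⟩

theorem Tang.add (h₁ : Tang Q c₁ Φ₁) (h₂ : Tang Q c₂ Φ₂) :
    Tang Q (c₁ + c₂) (fun f => Φ₁ f + Φ₂ f) := by
  intro f
  obtain ⟨l₁, hl₁⟩ := h₁ f
  obtain ⟨l₂, hl₂⟩ := h₂ f
  refine ⟨l₁ + l₂, fun g => ?_⟩
  have e : Φ₁ (f + g) + Φ₂ (f + g) - (Φ₁ f + Φ₂ f) - (l₁ + l₂) g
      = (Φ₁ (f + g) - Φ₁ f - l₁ g) + (Φ₂ (f + g) - Φ₂ f - l₂ g) := by
    rw [LinearMap.add_apply]; ring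
  rw [e, add_mul]
  exact (abs_add_le _ _).trans (add_le_add (hl₁ g) (hl₂ g))

/-- sum of two functionals with errors controlled by two quadratic forms -/
theorem Tang.add' (h₁ : Tang Q₁ c Φ₁) (h₂ : Tang Q₂ c Φ₂) :
    Tang (fun g => Q₁ g + Q₂ g) c (fun f => Φ₁ f + Φ₂ f) := by
  intro f
  obtain ⟨l₁, hl₁⟩ := h₁ f
  obtain ⟨l₂, hl₂⟩ := h₂ f
  refine ⟨l₁ + l₂, fun g => ?_⟩
  have e : Φ₁ (f + g) + Φ₂ (f + g) - (Φ₁ f + Φ₂ f) - (l₁ + l₂) g
      = (Φ₁ (f + g) - Φ₁ f - l₁ g) + (Φ₂ (f + g) - Φ₂ f - l₂ g) := by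
    rw [LinearMap.add_apply]; ring
  rw [e, mul_add]
  exact (abs_add_le _ _).trans (add_le_add (hl₁ g) (hl₂ g))

theorem Tang.smul (h : Tang Q c Φ) (a : ℝ) : Tang Q (|a| * c) (fun f => a * Φ f) := by
  intro f
  obtain ⟨l, hl⟩ := h f
  refine ⟨a • l, fun g => ?_⟩
  have e : a * Φ (f + g) - a * Φ f - (a • l) g = a * (Φ (f + g) - Φ f - l g) := by
    rw [LinearMap.smul_apply, smul_eq_mul]; ring
  rw [e, abs_mul, mul_assoc]
  exact mul_le_mul_of_nonneg_left (hl g) (abs_nonneg a)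

/-- the same, the weight put into the quadratic form -/
theorem Tang.smul' (h : Tang Q c Φ) {a : ℝ} (ha : 0 ≤ a) :
    Tang (fun g => a * Q g) c (fun f => a * Φ f) := by
  intro f
  obtain ⟨l, hl⟩ := h f
  refine ⟨a • l, fun g => ?_⟩
  have e : a * Φ (f + g) - a * Φ f - (a • l) g = a * (Φ (f + g) - Φ f - l g) := by
    rw [LinearMap.smul_apply, smul_eq_mul]; ring
  rw [e, abs_mul, abs_of_nonneg ha]
  calc a * |Φ (f + g) - Φ f - l g| ≤ a * (c * Q g) := mul_le_mul_of_nonneg_left (hl g) ha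
    _ = c * (a * Q g) := by ring

theorem Tang.sum {ι : Type*} {s : Finset ι} {c : ι → ℝ} {Φ : ι → V → ℝ}
    (h : ∀ i ∈ s, Tang Q (c i) (Φ i)) : Tang Q (∑ i ∈ s, c i) (fun f => ∑ i ∈ s, Φ i f) := by
  classical
  intro f
  choose! l hl using fun i (hi : i ∈ s) => h i hi f
  refine ⟨∑ i ∈ s, l i, fun g => ?_⟩
  have e : ∑ i ∈ s, Φ i (f + g) - ∑ i ∈ s, Φ i f - (∑ i ∈ s, l i) g
      = ∑ i ∈ s, (Φ i (f + g) - Φ i f - l i g) := by
    rw [LinearMap.sum_apply, sum_sub_distrib, sum_sub_distrib]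
  rw [e, sum_mul]
  exact (abs_sum_le_sum_abs _ _).trans (sum_le_sum fun i hi => hl i hi g)

/-- sum over blocks: the quadratic forms are added -/
theorem Tang.sum' {ι : Type*} {s : Finset ι} {Q : ι → V → ℝ} {Φ : ι → V → ℝ}
    (h : ∀ i ∈ s, Tang (Q i) c (Φ i)) :
    Tang (fun g => ∑ i ∈ s, Q i g) c (fun f => ∑ i ∈ s, Φ i f) := by
  classical
  intro f
  choose! l hl using fun i (hi : i ∈ s) => h i hi f
  refine ⟨∑ i ∈ s, l i, fun g => ?_⟩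
  have e : ∑ i ∈ s, Φ i (f + g) - ∑ i ∈ s, Φ i f - (∑ i ∈ s, l i) g
      = ∑ i ∈ s, (Φ i (f + g) - Φ i f - l i g) := by
    rw [LinearMap.sum_apply, sum_sub_distrib, sum_sub_distrib]
  rw [e, mul_sum]
  exact (abs_sum_le_sum_abs _ _).trans (sum_le_sum fun i hi => hl i hi g)

/-- composition with a linear map -/
theorem Tang.comp {W : Type*} [AddCommGroup W] [Module ℝ W] {Q : W → ℝ} {Φ : W → ℝ}
    (h : Tang Q c Φ) (L : V →ₗ[ℝ] W) : Tang (fun g => Q (L g)) c (fun f => Φ (L f)) := by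
  intro f
  obtain ⟨l, hl⟩ := h (L f)
  refine ⟨l.comp L, fun g => ?_⟩
  have := hl (L g)
  rwa [← map_add] at this

/-- **Lipschitz square roots of gaps** (with helper804's argument). -/
theorem sqrt_gap (h₁ : Tang Q c₁ Φ₁) (h₂ : Tang Q c₂ Φ₂) (hpos : ∀ f, Φ₂ f ≤ Φ₁ f)
    (hc : 0 ≤ c₁ + c₂) (hQ : ∀ h, 0 ≤ Q h) (hQ2 : ∀ (t : ℝ) (h : V), Q (t • h) = t ^ 2 * Q h)
    (f h : V) :
    Real.sqrt (Φ₁ (f + h) - Φ₂ (f + h))
      ≤ Real.sqrt (Φ₁ f - Φ₂ f) + Real.sqrt ((c₁ + c₂) * Q h) := by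
  obtain ⟨l₁, hl₁⟩ := h₁ f
  obtain ⟨l₂, hl₂⟩ := h₂ f
  set q : ℝ := (c₁ + c₂) * Q h with hq
  have hq0 : 0 ≤ q := mul_nonneg hc (hQ h)
  have hub : ∀ t : ℝ, Φ₁ (f + t • h) - Φ₂ (f + t • h)
      ≤ (Φ₁ f - Φ₂ f) + t * (l₁ h - l₂ h) + t ^ 2 * q := by
    intro t
    have e1 := (abs_le.mp (hl₁ (t • h))).2
    have e2 := (abs_le.mp (hl₂ (t • h))).1
    rw [hQ2, map_smul, smul_eq_mul] at e1 e2
    rw [hq]
    linarith
  have key : ∀ t : ℝ, 0 ≤ q * (t * t) + (l₁ h - l₂ h) * t + (Φ₁ f - Φ₂ f) := by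
    intro t
    have h1 := hub t
    have h2 := hpos (f + t • h)
    nlinarith
  have hd := discrim_le_zero key
  rw [discrim] at hd
  have hg : 0 ≤ Φ₁ f - Φ₂ f := sub_nonneg.mpr (hpos f)
  have h1 : l₁ h - l₂ h ≤ 2 * (Real.sqrt (Φ₁ f - Φ₂ f) * Real.sqrt q) := by
    have h2 : (l₁ h - l₂ h) ^ 2 ≤ (2 * (Real.sqrt (Φ₁ f - Φ₂ f) * Real.sqrt q)) ^ 2 := by
      have e : (2 * (Real.sqrt (Φ₁ f - Φ₂ f) * Real.sqrt q)) ^ 2 = 4 * q * (Φ₁ f - Φ₂ f) := by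
        rw [mul_pow, mul_pow, Real.sq_sqrt hg, Real.sq_sqrt hq0]; ring
      rw [e]; linarith
    exact (abs_le_of_sq_le_sq' h2 (by positivity)).2
  refine Real.sqrt_le_iff.2 ⟨by positivity, ?_⟩
  have h3 := hub 1
  rw [one_smul] at h3
  have h4 := Real.sq_sqrt hg
  have h5 := Real.sq_sqrt hq0
  nlinarith

end abs

/-! ### one block -/

section block

variable {m n p : Type*} [Fintype m] [DecidableEq m] [Fintype n] [DecidableEq n]
  [Fintype p] [DecidableEq p]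

/-- the sum of the squares of the entries -/
def ss (A : Matrix m n ℝ) : ℝ := ∑ j, ∑ i, A i j ^ 2

omit [DecidableEq m] [DecidableEq n] in
theorem ss_eq (A : Matrix m n ℝ) : (Aᵀ * A).trace = ss A := by
  simp only [Matrix.trace, Matrix.diag_apply, Matrix.mul_apply, Matrix.transpose_apply, ss,
    pow_two]

omit [DecidableEq m] [DecidableEq n] in
theorem ss_nonneg (A : Matrix m n ℝ) : 0 ≤ ss A :=
  sum_nonneg fun _ _ => sum_nonneg fun _ _ => sq_nonneg _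

theorem tang_GX : Tang (fun A : Matrix m n ℝ => ss A) 2 (fun A => GX (Aᵀ * A)) := by
  intro A
  refine ⟨{ toFun := fun B => dE A B
            map_add' := fun B C => dE_add A B C
            map_smul' := fun c B => by
              rw [dE_smul, RingHom.id_apply, smul_eq_mul] }, fun B => ?_⟩
  have h1 := GX_lower A B
  have h2 := GX_upper A B
  rw [ss_eq] at h2
  have h3 := ss_nonneg B
  simp only [LinearMap.coe_mk, AddHom.coe_mk]
  rw [abs_le]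
  constructor <;> linarith

theorem tang_PF : Tang (fun v : Matrix m n ℝ × Matrix p n ℝ => ss v.1 + ss v.2) 8
    (fun v => (phi (v.1ᵀ * v.1) * phi (v.2ᵀ * v.2)).trace) := by
  rintro ⟨A, B⟩
  refine ⟨{ toFun := fun v => H103.dPF A B v.1 v.2
            map_add' := fun v w => H103.dPF_add A B v.1 w.1 v.2 w.2
            map_smul' := fun c v => by
              rw [RingHom.id_apply, smul_eq_mul]
              exact H103.dPF_smul c A B v.1 v.2 }, ?_⟩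
  rintro ⟨A', B'⟩
  have h := H103.PF_tangent A B A' B'
  rw [H103.hs, H103.hs, ss_eq, ss_eq] at h
  simp only [LinearMap.coe_mk, AddHom.coe_mk]
  exact h

end block

/-! ### sums over intervals -/

theorem sum_iv (k : ℕ) (m : ℤ) (f : ℤ → ℝ) :
    ∑ x ∈ iv k m, f x = ∑ i : Ix k, f (2 ^ k * m + val k i) := by
  rw [sum_val k (fun i => f (2 ^ k * m + i))]
  refine (sum_nbij' (fun i : ℕ => 2 ^ k * m + (i : ℤ)) (fun x => (x - 2 ^ k * m).toNat)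
    ?_ ?_ ?_ ?_ ?_).symm
  · intro i hi
    have h := mem_range.mp hi
    have h' : (i : ℤ) < 2 ^ k := by exact_mod_cast h
    rw [iv, mem_Ico]
    constructor <;> linarith [Int.natCast_nonneg i]
  · intro x hx
    rw [iv, mem_Ico] at hx
    rw [mem_range]
    have : (x - 2 ^ k * m).toNat < 2 ^ k := by
      have h1 : x - 2 ^ k * m < ((2 ^ k : ℕ) : ℤ) := by push_cast; linarith
      omega
    exact this
  · intro i _
    show (2 ^ k * m + (i : ℤ) - 2 ^ k * m).toNat = i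
    rw [add_sub_cancel_left, Int.toNat_natCast]
  · intro x hx
    rw [iv, mem_Ico] at hx
    show 2 ^ k * m + (((x - 2 ^ k * m).toNat : ℕ) : ℤ) = x
    rw [Int.toNat_of_nonneg (by linarith)]
    ring
  · intro i _
    rfl

/-- the scale `a` intervals inside the scale `N` interval `R` -/
theorem sum_iv_iv {a N : ℕ} (h : a ≤ N) (R : ℤ) (f : ℤ → ℝ) :
    ∑ n ∈ iv (N - a) R, ∑ x ∈ iv a n, f x = ∑ x ∈ iv N R, f x := by
  classical
  have hm : ∀ x ∈ iv N R, ix a x ∈ iv (N - a) R := by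
    intro x hx
    rw [mem_iv] at hx ⊢
    rw [ix_ix, Nat.add_sub_cancel' h, hx]
  rw [← sum_fiberwise_of_maps_to hm]
  refine sum_congr rfl fun n hn => sum_congr ?_ fun _ _ => rfl
  ext x
  rw [mem_filter, mem_iv, mem_iv]
  rw [mem_iv] at hn
  constructor
  · intro hx
    refine ⟨?_, hx⟩
    rw [← hn, ← hx, ix_ix, Nat.add_sub_cancel' h]
  · exact fun hx => hx.2

theorem ss_smp (a b : ℕ) (F : ℤ → ℤ → ℝ) (n m : ℤ) :
    ss (smp a b F (2 ^ a * n) (2 ^ b * m)) = ∑ y ∈ iv b m, ∑ x ∈ iv a n, F x y ^ 2 := by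
  rw [sum_iv b m (fun y => ∑ x ∈ iv a n, F x y ^ 2)]
  refine sum_congr rfl fun j _ => ?_
  rw [sum_iv a n (fun x => F x (2 ^ b * m + val b j) ^ 2)]
  rfl

theorem sum_ss_smp {a b N : ℕ} (ha : a ≤ N) (hb : b ≤ N) (R S : ℤ) (F : ℤ → ℤ → ℝ) :
    ∑ m ∈ iv (N - b) S, ∑ n ∈ iv (N - a) R, ss (smp a b F (2 ^ a * n) (2 ^ b * m))
      = sq N R S F := by
  rw [H588.sq, ← sum_iv_iv hb S (fun y => ∑ x ∈ iv N R, F x y ^ 2)]
  refine sum_congr rfl fun m _ => ?_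
  simp only [ss_smp]
  rw [sum_comm]
  refine sum_congr rfl fun y _ => ?_
  exact sum_iv_iv ha R (fun x => F x y ^ 2)

theorem sq_nonneg' (N : ℕ) (R S : ℤ) (F : ℤ → ℤ → ℝ) : 0 ≤ sq N R S F :=
  sum_nonneg fun _ _ => sum_nonneg fun _ _ => sq_nonneg _

theorem sq_smul' (N : ℕ) (R S : ℤ) (t : ℝ) (F : ℤ → ℤ → ℝ) :
    sq N R S (t • F) = t ^ 2 * sq N R S F := by
  simp only [H588.sq, mul_sum, Pi.smul_apply, smul_eq_mul, mul_pow]

/-! ### linear sampling -/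

/-- normalised samples, as a linear map -/
noncomputable def smL (a b : ℕ) (n m : ℤ) : (ℤ → ℤ → ℝ) →ₗ[ℝ] Matrix (Ix a) (Ix b) ℝ where
  toFun F := Real.sqrt (((2 : ℝ) ^ a * 2 ^ b)⁻¹) • smp a b F (2 ^ a * n) (2 ^ b * m)
  map_add' F G := by
    rw [← smul_add]; rfl
  map_smul' c F := by
    rw [RingHom.id_apply, smul_comm c]; rfl

theorem Xg_eq (a b : ℕ) (F : ℤ → ℤ → ℝ) (n m : ℤ) :
    Xg a b F n m = (smL a b n m F)ᵀ * smL a b n m F := by
  have h : (0 : ℝ) ≤ ((2 : ℝ) ^ a * 2 ^ b)⁻¹ := by positivity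
  rw [smL, LinearMap.coe_mk, AddHom.coe_mk, transpose_smul, Matrix.smul_mul, Matrix.mul_smul,
    smul_smul, Real.mul_self_sqrt h]
  rfl

theorem ss_smL (a b : ℕ) (F : ℤ → ℤ → ℝ) (n m : ℤ) :
    ss (smL a b n m F) = ((2 : ℝ) ^ a * 2 ^ b)⁻¹ * ss (smp a b F (2 ^ a * n) (2 ^ b * m)) := by
  have h : (0 : ℝ) ≤ ((2 : ℝ) ^ a * 2 ^ b)⁻¹ := by positivity
  rw [smL, LinearMap.coe_mk, AddHom.coe_mk]
  simp only [ss, mul_sum, Matrix.smul_apply, smul_eq_mul, mul_pow, Real.sq_sqrt h]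

/-! ### tangents of the sums -/

/-- **Tangents of the energies.** -/
theorem tang_en {N a b : ℕ} (ha : a ≤ N) (hb : b ≤ N) (R S : ℤ) :
    Tang (fun F => sq N R S F) 2 (fun F => en N R S a b F) := by
  have h1 : ∀ m ∈ iv (N - b) S, ∀ n ∈ iv (N - a) R,
      Tang (fun F : ℤ → ℤ → ℝ => ss (smL a b n m F)) 2 (fun F => GX (Xg a b F n m)) := by
    intro m _ n _
    have := (tang_GX (m := Ix a) (n := Ix b)).comp (smL a b n m)
    simpa only [← Xg_eq] using this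
  have h2 := (Tang.sum' fun m hm => Tang.sum' fun n hn => h1 m hm n hn).smul'
    (show (0 : ℝ) ≤ 2 ^ a * 2 ^ b by positivity)
  refine Tang.mono h2 fun F => le_of_eq ?_
  rw [← sum_ss_smp ha hb R S F]
  simp only [ss_smL, ← mul_sum]
  rw [← mul_assoc (2 ^ a * 2 ^ b : ℝ), mul_inv_cancel₀ (by positivity), one_mul]

/-- **Tangents of the mixed energies.** -/
theorem tang_Mk {N k : ℕ} (hk : k ≤ N) (R S T c : ℤ) :
    Tang (fun f : (ℤ → ℤ → ℝ) × (ℤ → ℤ → ℝ) => sq N R S f.1 + sq N T S f.2) 8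
      (fun f => Mk N R S T k c f.1 f.2) := by
  have h1 : ∀ m ∈ iv (N - k) S, ∀ n ∈ iv (N - k) R,
      Tang (fun f : (ℤ → ℤ → ℝ) × (ℤ → ℤ → ℝ) => ss (smL k k n m f.1)
        + if c - m - n ∈ iv (N - k) T then ss (smL k k (c - m - n) m f.2) else 0) 8
      (fun f => if c - m - n ∈ iv (N - k) T then
        (phi (Xg k k f.1 n m) * phi (Xg k k f.2 (c - m - n) m)).trace else 0) := by
    intro m _ n _
    by_cases hc : c - m - n ∈ iv (N - k) T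
    · simp only [if_pos hc]
      have := (tang_PF (m := Ix k) (n := Ix k) (p := Ix k)).comp
        ((smL k k n m).prodMap (smL k k (c - m - n) m))
      simpa only [LinearMap.prodMap_apply, ← Xg_eq] using this
    · simp only [if_neg hc]
      exact Tang.zero (fun g => by have := ss_nonneg (smL k k n m g.1); linarith) (by norm_num)
  have h2 := (Tang.sum' fun m hm => Tang.sum' fun n hn => h1 m hm n hn).smul'
    (show (0 : ℝ) ≤ 4 ^ k by positivity)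
  refine Tang.mono h2 fun f => mul_le_mul_of_nonneg_left ?_ (by norm_num)
  rw [← sum_ss_smp hk hk R S f.1, ← sum_ss_smp hk hk T S f.2]
  have e4 : (4 : ℝ) ^ k * (((2 : ℝ) ^ k * 2 ^ k)⁻¹) = 1 := by
    rw [← mul_pow, show (2 : ℝ) * 2 = 4 by norm_num, mul_inv_cancel₀ (by positivity)]
  simp only [sum_add_distrib, mul_add]
  refine add_le_add (le_of_eq ?_) ?_
  · simp only [ss_smL, ← mul_sum]
    rw [← mul_assoc, e4, one_mul]
  · rw [mul_sum]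
    refine sum_le_sum fun m _ => ?_
    rw [← sum_filter]
    simp only [ss_smL, ← mul_sum]
    rw [← mul_assoc, e4, one_mul]
    have hinj : ∀ x ∈ (iv (N - k) R).filter (fun n => c - m - n ∈ iv (N - k) T),
        ∀ y ∈ (iv (N - k) R).filter (fun n => c - m - n ∈ iv (N - k) T),
        c - m - x = c - m - y → x = y := by
      intro x _ y _ h
      linarith
    rw [← sum_image (f := fun x => ss (smp k k f.2 (2 ^ k * x) (2 ^ k * m))) hinj]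
    refine sum_le_sum_of_subset_of_nonneg ?_ fun _ _ _ => ss_nonneg _
    intro x hx
    rw [mem_image] at hx
    obtain ⟨y, hy, rfl⟩ := hx
    exact (mem_filter.mp hy).2

/-! ### pairs -/

/-- The quadratic form of a pair. -/
noncomputable def QQ (N : ℕ) (R S T : ℤ) (f : (ℤ → ℤ → ℝ) × (ℤ → ℤ → ℝ)) : ℝ :=
  H588.sq N R S f.1 + H588.sq N T S f.2

theorem QQ_nonneg (N : ℕ) (R S T : ℤ) (f : (ℤ → ℤ → ℝ) × (ℤ → ℤ → ℝ)) : 0 ≤ QQ N R S T f :=
  add_nonneg (sq_nonneg' ..) (sq_nonneg' ..)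

theorem QQ_smul (N : ℕ) (R S T : ℤ) (t : ℝ) (f : (ℤ → ℤ → ℝ) × (ℤ → ℤ → ℝ)) :
    QQ N R S T (t • f) = t ^ 2 * QQ N R S T f := by
  rw [QQ, QQ, Prod.smul_fst, Prod.smul_snd, sq_smul', sq_smul']
  ring

theorem tang_en_pair {N a b : ℕ} (ha : a ≤ N) (hb : b ≤ N) (R S T : ℤ) :
    Tang (QQ N R S T) 2 (fun f => en N R S a b f.1 + en N T S a b f.2) :=
  ((tang_en ha hb R S).comp (LinearMap.fst ℝ (ℤ → ℤ → ℝ) (ℤ → ℤ → ℝ))).add'
    ((tang_en ha hb T S).comp (LinearMap.snd ℝ (ℤ → ℤ → ℝ) (ℤ → ℤ → ℝ)))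

/-- A mixed energy plus a nonnegative combination of energies. -/
theorem tang_comb {N k : ℕ} (hk : k ≤ N) (R S T c : ℤ) {ι : Type*} {s : Finset ι} {w : ι → ℝ}
    {a b : ι → ℕ} (hw : ∀ i ∈ s, 0 ≤ w i) (ha : ∀ i ∈ s, a i ≤ N) (hb : ∀ i ∈ s, b i ≤ N) {W : ℝ}
    (hW : ∑ i ∈ s, w i ≤ W) :
    Tang (QQ N R S T) (8 + 2 * W) (fun f => Mk N R S T k c f.1 f.2
      + ∑ i ∈ s, w i * (en N R S (a i) (b i) f.1 + en N T S (a i) (b i) f.2)) := by
  have h1 : Tang (QQ N R S T) 8 (fun f => Mk N R S T k c f.1 f.2) := tang_Mk hk R S T c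
  have h2 := Tang.sum (Q := QQ N R S T) (s := s)
    fun i hi => (tang_en_pair (ha i hi) (hb i hi) R S T).smul (w i)
  refine (h1.add h2).mono fun g => mul_le_mul_of_nonneg_right ?_ (QQ_nonneg ..)
  have : ∑ i ∈ s, |w i| * 2 ≤ 2 * W := by
    rw [← sum_mul, mul_comm]
    refine mul_le_mul_of_nonneg_left ?_ (by norm_num)
    rwa [sum_congr rfl fun i hi => abs_of_nonneg (hw i hi)]
  linarith

/-- **Last clause of `StFun`** for functionals with two-sided tangents. -/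
theorem sqrt_gap_pair {N : ℕ} {R S T : ℤ} {Φ₁ Φ₂ : (ℤ → ℤ → ℝ) × (ℤ → ℤ → ℝ) → ℝ} {c : ℝ}
    (hc : 0 ≤ c) (h₁ : Tang (QQ N R S T) c Φ₁) (h₂ : Tang (QQ N R S T) c Φ₂)
    (hpos : ∀ f, Φ₂ f ≤ Φ₁ f) (f g : (ℤ → ℤ → ℝ) × (ℤ → ℤ → ℝ)) :
    Real.sqrt (Φ₁ (f + g) - Φ₂ (f + g))
      ≤ Real.sqrt (Φ₁ f - Φ₂ f)
        + Real.sqrt (2 * c * (H588.sq N R S g.1 + H588.sq N T S g.2)) := by
  have h := sqrt_gap h₁ h₂ hpos (by linarith) (QQ_nonneg N R S T) (QQ_smul N R S T) f g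
  rwa [← two_mul, QQ] at h

end Vale.Agent.P141.PL.H978
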