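import Vale.Agent.P141.PL.H978.Lines
import Vale.Agent.P141.PL.H95.Alive
import Vale.Agent.P141.PL.H990.Kill

/-!
# P141, polylog bound: companions from paths of functions of one variable, dead intervals cut
-/

namespace Vale.Agent.P141.PL.H978

open Finset Vale.Agent.P141.PL.H95
open Vale.Agent.P141.H315 (Grid dot)

/-- Windows of one length are at most the whole variation along a monotone sequence of scales. -/
theorem windows_of_movement {X : Type*} {Q : Finset X} {V : ℕ → X → ℝ} {l : ℕ} {B : ℝ}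
    (hM : ∀ m : ℕ → ℕ, Monotone m → ∀ N, m N ≤ l →
      ∑ i ∈ range N, dot Q (V (m (i + 1)) - V (m i)) (V (m (i + 1)) - V (m i)) ≤ B)
    (J j : ℕ) (hj : j < J) :
    ∑ i ∈ range (2 ^ (J - 1 - j)), ∑ y ∈ Q,
      (V (l - min ((2 * i + 1) * 2 ^ j) l) y - V (l - min ((2 * i) * 2 ^ j) l) y) ^ 2 ≤ B := by
  set N : ℕ := 2 * 2 ^ (J - 1 - j) with hN
  set m : ℕ → ℕ := fun i => l - (N - i) * 2 ^ j with hm
  have hmono : Monotone m := by
    intro a b hab
    simp only [hm]
    have : (N - b) * 2 ^ j ≤ (N - a) * 2 ^ j := Nat.mul_le_mul_right _ (by omega)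
    omega
  have hmN : m N ≤ l := by simp only [hm]; omega
  have h1 := hM m hmono N hmN
  have e : ∀ a, l - min a l = l - a := fun a => by omega
  simp only [e]
  -- reflection
  rw [← sum_range_reflect] at h1
  have h2 : ∑ i ∈ range N, dot Q (V (m (N - 1 - i + 1)) - V (m (N - 1 - i)))
      (V (m (N - 1 - i + 1)) - V (m (N - 1 - i))) =
      ∑ t ∈ range N, ∑ y ∈ Q, (V (l - (t + 1) * 2 ^ j) y - V (l - t * 2 ^ j) y) ^ 2 := by
    refine sum_congr rfl fun t ht => ?_
    rw [mem_range] at ht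
    have e1 : m (N - 1 - t + 1) = l - t * 2 ^ j := by
      simp only [hm]
      congr 2; omega
    have e2 : m (N - 1 - t) = l - (t + 1) * 2 ^ j := by
      simp only [hm]
      congr 2; omega
    rw [e1, e2, dot]
    refine sum_congr rfl fun y _ => ?_
    rw [Pi.sub_apply]
    ring
  rw [h2, hN, H317.sum_range_two_mul] at h1
  refine (sum_le_sum fun i _ => ?_).trans h1
  refine le_add_of_nonneg_right ?_
  exact sum_nonneg fun y _ => sq_nonneg _

section cut

variable {g : Grid ℤ} {n : ℕ} {F : ℤ → ℝ} {V : ℕ → ℤ → ℝ}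

theorem cut_sq_le (k : ℕ) (y : ℤ) : cut g n F V k y ^ 2 ≤ V k y ^ 2 := by
  by_cases h : Al g n F k y
  · rw [cut_of_al h]
  · rw [cut_of_not h]
    simpa using sq_nonneg (V k y)

/-- below a dead interval everything is zero -/
theorem cut_dead {k l : ℕ} (hkl : k ≤ l) {x y : ℤ} (hx : ¬ Al g n F l x) (hy : y ∈ g.cube l x) :
    cut g n F V k y = 0 := by
  refine cut_of_not fun h => hx ?_
  exact (Al_congr hy).mp (h.mono hkl)

/-- energies of the cut path -/
theorem cut_energy (hE : ∀ k l x, k ≤ l → dot (g.cube l x) (V k) (V k) ≤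
    4 * dot (g.cube l x) F F) {k l : ℕ} (hkl : k ≤ l) (hl : l ≤ n) (x : ℤ) :
    ∑ y ∈ g.cube l x, cut g n F V k y ^ 2 ≤ 16 * 2 ^ (l + 7) := by
  by_cases h : Al g n F l x
  · have h1 := hE k l x hkl
    have h2 := h l le_rfl hl
    have h3 : ∑ y ∈ g.cube l x, cut g n F V k y ^ 2 ≤ dot (g.cube l x) (V k) (V k) := by
      refine sum_le_sum fun y _ => ?_
      rw [← sq]
      exact cut_sq_le k y
    linarith
  · rw [sum_eq_zero fun y hy => by rw [cut_dead hkl h hy]; ring]
    positivity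

/-- movements of the cut path, one number `J` of windows -/
theorem cut_window_aux {C1 : ℝ} (hC : 0 ≤ C1)
    (hE : ∀ k l x, k ≤ l → dot (g.cube l x) (V k) (V k) ≤ 4 * dot (g.cube l x) F F)
    (hM : ∀ l x (m : ℕ → ℕ), Monotone m → ∀ N, m N ≤ l →
      ∑ i ∈ range N, dot (g.cube l x) (V (m (i + 1)) - V (m i)) (V (m (i + 1)) - V (m i)) ≤
        C1 * dot (g.cube l x) F F) {l : ℕ} (hl : l ≤ n) (x : ℤ) (J j : ℕ) (hj : j < J) :
    ∑ i ∈ range (2 ^ (J - 1 - j)), ∑ y ∈ g.cube l x,
      (cut g n F V (l - min ((2 * i + 1) * 2 ^ j) l) y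
        - cut g n F V (l - min ((2 * i) * 2 ^ j) l) y) ^ 2 ≤
      (48 + 4 * C1 * (1 + 3 * J * (J + 1))) * 2 ^ (l + 7) := by
  by_cases h : Al g n F l x
  · have h2 := h l le_rfl hl
    have hP : (0 : ℝ) < 2 ^ (l + 7) := by positivity
    set R : ℕ → Set ℤ := fun t => {y | ¬ Al g n F (l - t) y} with hR
    have hRm : Monotone R := by
      intro a b hab y hy
      simp only [hR, Set.mem_setOf_eq] at hy ⊢
      exact fun h' => hy (h'.mono (by omega))
    have hkl : ∀ t, H990.kl R (fun t => V (l - t)) t = cut g n F V (l - t) := by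
      intro t
      funext y
      by_cases hy : Al g n F (l - t) y
      · rw [cut_of_al hy, H990.kl, if_neg (by simpa [hR] using hy)]
      · rw [cut_of_not hy, H990.kl, if_pos (by simpa [hR] using hy)]
    have hwq : ∀ f : ℤ → ℝ, H990.wq (g.cube l x) (fun _ => 1) f = ∑ y ∈ g.cube l x, f y ^ 2 := by
      intro f
      simp only [H990.wq, one_mul]
    have hk := H990.kills' (g.cube l x) (μ := fun _ => (1 : ℝ)) (fun _ _ => zero_le_one) hRm
      (fun t => V (l - t)) l J (D0 := 16 * 2 ^ (l + 7)) (D := 4 * C1 * 2 ^ (l + 7)) (by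
        rw [hwq]
        have h1 := hE l l x le_rfl
        have : ∑ y ∈ g.cube l x, V (l - 0) y ^ 2 = dot (g.cube l x) (V l) (V l) :=
          sum_congr rfl fun y _ => by rw [Nat.sub_zero, sq]
        rw [this]
        linarith) (by
        intro j' hj'
        have h1 := windows_of_movement (Q := g.cube l x) (V := V) (l := l)
          (fun m hm N hN => hM l x m hm N hN) J j' hj'
        simp only [hwq, Pi.sub_apply]
        refine h1.trans ?_
        have := mul_le_mul_of_nonneg_left h2 hC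
        linarith) j hj
    simp only [hkl, hwq, Pi.sub_apply] at hk
    refine hk.trans (le_of_eq ?_)
    ring
  · rw [sum_eq_zero fun i _ => sum_eq_zero fun y hy => by
      rw [cut_dead (Nat.sub_le _ _) h hy, cut_dead (Nat.sub_le _ _) h hy]; ring]
    positivity

/-- movements of the cut path, with a bound which does not depend on the number of windows -/
theorem cut_window {C1 : ℝ} (hC : 0 ≤ C1)
    (hE : ∀ k l x, k ≤ l → dot (g.cube l x) (V k) (V k) ≤ 4 * dot (g.cube l x) F F)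
    (hM : ∀ l x (m : ℕ → ℕ), Monotone m → ∀ N, m N ≤ l →
      ∑ i ∈ range N, dot (g.cube l x) (V (m (i + 1)) - V (m i)) (V (m (i + 1)) - V (m i)) ≤
        C1 * dot (g.cube l x) F F) {l : ℕ} (hl : l ≤ n) (x : ℤ) (J j : ℕ) (hj : j < J) :
    ∑ i ∈ range (2 ^ (J - 1 - j)), ∑ y ∈ g.cube l x,
      (cut g n F V (l - min ((2 * i + 1) * 2 ^ j) l) y
        - cut g n F V (l - min ((2 * i) * 2 ^ j) l) y) ^ 2 ≤
      (64 + 4 * C1 * (1 + 3 * (Nat.clog 2 n : ℝ) * ((Nat.clog 2 n : ℝ) + 1))) * 2 ^ (l + 7) := by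
  set c : ℕ := Nat.clog 2 n with hc
  have hnc : n ≤ 2 ^ c := Nat.le_pow_clog (by norm_num) n
  have hP : (0 : ℝ) < 2 ^ (l + 7) := by positivity
  rcases le_or_gt J c with hJ | hJ
  · refine (cut_window_aux hC hE hM hl x J j hj).trans ?_
    have h1 : (J : ℝ) ≤ c := by exact_mod_cast hJ
    have h0 : (0 : ℝ) ≤ J := Nat.cast_nonneg J
    have h2 : (J : ℝ) * (J + 1) ≤ c * (c + 1) := by nlinarith
    refine mul_le_mul_of_nonneg_right ?_ hP.le
    have h3 : 4 * C1 * (1 + 3 * J * (J + 1)) ≤ 4 * C1 * (1 + 3 * (c : ℝ) * (c + 1)) :=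
      mul_le_mul_of_nonneg_left (by nlinarith) (by positivity)
    linarith
  · rcases lt_or_ge j c with hjc | hjc
    · have hvan : ∑ i ∈ range (2 ^ (J - 1 - j)), ∑ y ∈ g.cube l x,
          (cut g n F V (l - min ((2 * i + 1) * 2 ^ j) l) y
            - cut g n F V (l - min ((2 * i) * 2 ^ j) l) y) ^ 2 =
          ∑ i ∈ range (2 ^ (c - 1 - j)), ∑ y ∈ g.cube l x,
          (cut g n F V (l - min ((2 * i + 1) * 2 ^ j) l) y
            - cut g n F V (l - min ((2 * i) * 2 ^ j) l) y) ^ 2 := by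
        symm
        refine sum_subset (range_subset_range.mpr (Nat.pow_le_pow_right (by norm_num) (by omega)))
          fun i _ hi => sum_eq_zero fun y _ => ?_
        have hi' : 2 ^ (c - 1 - j) ≤ i := by simpa using hi
        have h1 : 2 ^ c ≤ (2 * i) * 2 ^ j := by
          calc 2 ^ c = 2 * 2 ^ (c - 1 - j) * 2 ^ j := by
                rw [← pow_succ', ← pow_add]; congr 1; omega
            _ ≤ (2 * i) * 2 ^ j := by gcongr
        have h2 : (2 * i) * 2 ^ j ≤ (2 * i + 1) * 2 ^ j := by gcongr; omega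
        rw [min_eq_right (by omega : l ≤ (2 * i) * 2 ^ j),
          min_eq_right (by omega : l ≤ (2 * i + 1) * 2 ^ j)]
        ring
      rw [hvan]
      refine (cut_window_aux hC hE hM hl x c j hjc).trans ?_
      exact mul_le_mul_of_nonneg_right (by linarith) hP.le
    · have h2c : 2 ^ c ≤ 2 ^ j := Nat.pow_le_pow_right (by norm_num) hjc
      have hone : ∑ i ∈ range (2 ^ (J - 1 - j)), ∑ y ∈ g.cube l x,
          (cut g n F V (l - min ((2 * i + 1) * 2 ^ j) l) y
            - cut g n F V (l - min ((2 * i) * 2 ^ j) l) y) ^ 2 =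
          ∑ y ∈ g.cube l x, (cut g n F V 0 y - cut g n F V l y) ^ 2 := by
        have h0 : (0 : ℕ) ∈ range (2 ^ (J - 1 - j)) := mem_range.mpr (by positivity)
        rw [sum_eq_single_of_mem 0 h0]
        · refine sum_congr rfl fun y _ => ?_
          rw [min_eq_right (by omega : l ≤ (2 * 0 + 1) * 2 ^ j)]
          simp
        · intro i _ hi
          refine sum_eq_zero fun y _ => ?_
          have hi1 : 1 ≤ i := Nat.one_le_iff_ne_zero.mpr hi
          have h1 : 2 ^ j ≤ (2 * i) * 2 ^ j := Nat.le_mul_of_pos_left _ (by omega)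
          have h2 : (2 * i) * 2 ^ j ≤ (2 * i + 1) * 2 ^ j := by gcongr; omega
          rw [min_eq_right (by omega : l ≤ (2 * i) * 2 ^ j),
            min_eq_right (by omega : l ≤ (2 * i + 1) * 2 ^ j)]
          ring
      rw [hone]
      have e1 := cut_energy (n := n) hE (Nat.zero_le l) hl x
      have e2 := cut_energy (n := n) hE (le_refl l) hl x
      have e3 : ∑ y ∈ g.cube l x, (cut g n F V 0 y - cut g n F V l y) ^ 2 ≤
          2 * ∑ y ∈ g.cube l x, cut g n F V 0 y ^ 2 + 2 * ∑ y ∈ g.cube l x, cut g n F V l y ^ 2 := by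
        rw [mul_sum, mul_sum, ← sum_add_distrib]
        refine sum_le_sum fun y _ => ?_
        nlinarith [sq_nonneg (cut g n F V 0 y + cut g n F V l y)]
      have e4 : 0 ≤ 4 * C1 * (1 + 3 * (c : ℝ) * ((c : ℝ) + 1)) := by positivity
      have e5 := mul_nonneg e4 hP.le
      linarith

end cut

/-- **Companions from paths**: `V` is any path of functions of one variable with the energy and
movement bounds of the process. -/
theorem comp_cut {n : ℕ} {e δ C1 : ℝ} {s : ℤ} {F : ℤ → ℝ} {V : ℕ → ℤ → ℝ} (j : Fin 4)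
    (hC : 0 ≤ C1)
    (hU : ∀ k l, k ≤ l → l ≤ n → ∀ (p : Pt) (u : H315.Tri),
      |H315.avg (H315.cube3 l p) (fun q => lift j (cut (gr 7 s) n F V k) q * H315.atm u q)| ≤
        H315.wN δ e l p u)
    (hE : ∀ k l x, k ≤ l → dot ((gr 7 s).cube l x) (V k) (V k) ≤
      4 * dot ((gr 7 s).cube l x) F F)
    (hM : ∀ l x (m : ℕ → ℕ), Monotone m → ∀ N, m N ≤ l →
      ∑ i ∈ range N, dot ((gr 7 s).cube l x) (V (m (i + 1)) - V (m i))
        (V (m (i + 1)) - V (m i)) ≤ C1 * dot ((gr 7 s).cube l x) F F) :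
    Comp n e δ (2 ^ 8 * (64 + 4 * C1 * (1 + 3 * (Nat.clog 2 n : ℝ) * ((Nat.clog 2 n : ℝ) + 1))))
      (fun k => lift j (cut (gr 7 s) n F V k)) := by
  have e4 : 0 ≤ 4 * C1 * (1 + 3 * (Nat.clog 2 n : ℝ) * ((Nat.clog 2 n : ℝ) + 1)) := by positivity
  refine comp_of_intervals (s := s) j hU (fun k l hkl hl x => ?_) (fun l hl J i' _ hi' x => ?_)
  · refine (cut_energy hE hkl hl x).trans ?_
    have hP : (0 : ℝ) < 2 ^ (l + 7) := by positivity
    nlinarith [mul_nonneg e4 hP.le]
  · refine (cut_window hC hE hM hl x J i' hi').trans (le_of_eq ?_)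
    ring

end Vale.Agent.P141.PL.H978
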