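import Vale.Agent.P141.PL.Defs1
import Vale.Agent.P141.PL.H95.Grid

/-!
# P141, polylog bound: line statements of `Comp` from interval statements

A line of scale `l` of a face meets at most two intervals of time `l` (length `2 ^ (l + 7)`) of the
grid `gr 7 s`.
-/

namespace Vale.Agent.P141.PL.H978

open Finset Vale.Agent.P141.PL.H95

/-- The points of a scale `l` line are in two intervals of time `l`. -/
theorem line_le {l : ℕ} {s c b m : ℤ} (hc : c ≠ 0) (hc3 : |c| ≤ 3) {φ : ℤ → ℝ}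
    (h0 : ∀ y, 0 ≤ φ y) {B : ℝ} (hB : ∀ x, ∑ y ∈ (gr 7 s).cube l x, φ y ≤ B) :
    ∑ x ∈ iv l m, φ (c * x + b) ≤ 2 * B := by
  classical
  have hP : (0 : ℤ) < 2 ^ (l + 7) := by positivity
  have hl : (0 : ℤ) < 2 ^ l := by positivity
  have hPl : (2 : ℤ) ^ (l + 7) = 128 * 2 ^ l := by rw [pow_add]; ring
  -- the smallest point
  obtain ⟨a, ha⟩ : ∃ a : ℤ, ∀ x ∈ iv l m, a ≤ c * x + b ∧ c * x + b < a + 2 ^ (l + 7) := by
    rw [abs_le] at hc3
    rcases lt_or_gt_of_ne hc with h | h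
    · refine ⟨c * (2 ^ l * m + 2 ^ l) + b, fun x hx => ?_⟩
      rw [iv, mem_Ico] at hx
      constructor
      · nlinarith [hx.2]
      · rw [hPl]; nlinarith [hx.1, hx.2]
    · refine ⟨c * (2 ^ l * m) + b, fun x hx => ?_⟩
      rw [iv, mem_Ico] at hx
      constructor
      · nlinarith [hx.1]
      · rw [hPl]; nlinarith [hx.1, hx.2]
  have hinj : ∀ x ∈ iv l m, ∀ y ∈ iv l m, c * x + b = c * y + b → x = y := by
    intro x _ y _ h
    exact mul_left_cancel₀ hc (by linarith)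
  rw [← sum_image (f := φ) hinj]
  have hsub : (iv l m).image (fun x => c * x + b) ⊆
      (gr 7 s).cube l a ∪ (gr 7 s).cube l (a + 2 ^ (l + 7)) := by
    intro y hy
    rw [mem_image] at hy
    obtain ⟨x, hx, rfl⟩ := hy
    obtain ⟨h1, h2⟩ := ha x hx
    rw [mem_union, mem_gr, mem_gr]
    set y := c * x + b with hy
    have e1 : (a + 2 ^ (l + 7) + s) / 2 ^ (l + 7) = (a + s) / 2 ^ (l + 7) + 1 := by
      rw [show a + 2 ^ (l + 7) + s = (a + s) + 1 * 2 ^ (l + 7) by ring,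
        Int.add_mul_ediv_right _ _ hP.ne']
    rw [e1]
    have h3 : (a + s) / 2 ^ (l + 7) ≤ (y + s) / 2 ^ (l + 7) :=
      Int.ediv_le_ediv hP (by linarith)
    have h4 : (y + s) / 2 ^ (l + 7) ≤ (a + s) / 2 ^ (l + 7) + 1 := by
      rw [← e1]
      exact Int.ediv_le_ediv hP (by linarith)
    omega
  calc ∑ y ∈ (iv l m).image (fun x => c * x + b), φ y
      ≤ ∑ y ∈ (gr 7 s).cube l a ∪ (gr 7 s).cube l (a + 2 ^ (l + 7)), φ y :=
        sum_le_sum_of_subset_of_nonneg hsub fun _ _ _ => h0 _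
    _ ≤ ∑ y ∈ (gr 7 s).cube l a, φ y + ∑ y ∈ (gr 7 s).cube l (a + 2 ^ (l + 7)), φ y := by
        rw [← sum_union_inter]
        exact le_add_of_nonneg_right (sum_nonneg fun _ _ => h0 _)
    _ ≤ 2 * B := by
        have := hB a
        have := hB (a + 2 ^ (l + 7))
        linarith

/-- The coefficients of the faces. -/
theorem fc_ne (j : Fin 4) : (fc j).1 ≠ 0 ∧ (fc j).2.1 ≠ 0 ∧ (fc j).2.2 ≠ 0 := by
  fin_cases j <;> simp [fc]

theorem fc_abs (j : Fin 4) : |(fc j).1| ≤ 3 ∧ |(fc j).2.1| ≤ 3 ∧ |(fc j).2.2| ≤ 3 := by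
  fin_cases j <;> simp [fc]

theorem el1 (c : Pt) (x y z : ℤ) : el c (x, y, z) = c.1 * x + (c.2.1 * y + c.2.2 * z) := by
  simp only [el]; ring

theorem el2 (c : Pt) (x y z : ℤ) : el c (x, y, z) = c.2.1 * y + (c.1 * x + c.2.2 * z) := by
  simp only [el]; ring

theorem el3 (c : Pt) (x y z : ℤ) : el c (x, y, z) = c.2.2 * z + (c.1 * x + c.2.1 * y) := by
  simp only [el]; ring

/-- **Lines from intervals**: the six line fields of `Comp` follow from the energies and movements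
on the intervals of one grid. -/
theorem comp_of_intervals {n : ℕ} {e δ A : ℝ} {s : ℤ} {g : ℕ → ℤ → ℝ} (j : Fin 4)
    (hU : ∀ k l, k ≤ l → l ≤ n → ∀ (p : Pt) (u : H315.Tri),
      |H315.avg (H315.cube3 l p) (fun q => lift j (g k) q * H315.atm u q)| ≤ H315.wN δ e l p u)
    (hE : ∀ k l, k ≤ l → l ≤ n → ∀ x, ∑ y ∈ (gr 7 s).cube l x, g k y ^ 2 ≤ 2 ^ (l + 7) * A)
    (hW : ∀ l ≤ n, ∀ J i' : ℕ, l ≤ 2 ^ J → i' < J → ∀ x,
      ∑ i ∈ range (2 ^ (J - 1 - i')), ∑ y ∈ (gr 7 s).cube l x,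
        (g (l - min ((2 * i + 1) * 2 ^ i') l) y - g (l - min ((2 * i) * 2 ^ i') l) y) ^ 2
          ≤ 2 ^ (l + 7) * A) :
    Comp n e δ (2 ^ 8 * A) (fun k => lift j (g k)) := by
  obtain ⟨n1, n2, n3⟩ := fc_ne j
  obtain ⟨a1, a2, a3⟩ := fc_abs j
  have hE' : ∀ k l, k ≤ l → l ≤ n → ∀ c b m : ℤ, c ≠ 0 → |c| ≤ 3 →
      ∑ x ∈ iv l m, g k (c * x + b) ^ 2 ≤ 2 ^ l * (2 ^ 8 * A) := by
    intro k l hkl hl c b m hc hc3
    have h := line_le (s := s) (b := b) (m := m) hc hc3 (φ := fun y => g k y ^ 2)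
      (fun _ => sq_nonneg _) (hE k l hkl hl)
    refine h.trans (le_of_eq ?_)
    rw [pow_add]; ring
  have hW' : ∀ l ≤ n, ∀ J i' : ℕ, l ≤ 2 ^ J → i' < J → ∀ c b m : ℤ, c ≠ 0 → |c| ≤ 3 →
      ∑ i ∈ range (2 ^ (J - 1 - i')), ∑ x ∈ iv l m,
        (g (l - min ((2 * i + 1) * 2 ^ i') l) (c * x + b)
          - g (l - min ((2 * i) * 2 ^ i') l) (c * x + b)) ^ 2 ≤ 2 ^ l * (2 ^ 8 * A) := by
    intro l hl J i' hJ hi' c b m hc hc3
    have h := line_le (l := l) (s := s) (b := b) (m := m) hc hc3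
      (φ := fun y => ∑ i ∈ range (2 ^ (J - 1 - i')),
        (g (l - min ((2 * i + 1) * 2 ^ i') l) y - g (l - min ((2 * i) * 2 ^ i') l) y) ^ 2)
      (fun _ => sum_nonneg fun _ _ => sq_nonneg _)
      (B := 2 ^ (l + 7) * A) (fun x => by rw [sum_comm]; exact hW l hl J i' hJ hi' x)
    rw [sum_comm] at h
    refine h.trans (le_of_eq ?_)
    rw [pow_add]; ring
  refine ⟨hU, ?_, ?_, ?_, ?_, ?_, ?_⟩
  · intro k l hkl hl m y z
    simp only [lift, el1]
    exact hE' k l hkl hl _ _ m n1 a1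
  · intro k l hkl hl x m z
    simp only [lift, el2]
    exact hE' k l hkl hl _ _ m n2 a2
  · intro k l hkl hl x y m
    simp only [lift, el3]
    exact hE' k l hkl hl _ _ m n3 a3
  · intro l hl J i' hJ hi' m y z
    simp only [lift, el1]
    exact hW' l hl J i' hJ hi' _ _ m n1 a1
  · intro l hl J i' hJ hi' x m z
    simp only [lift, el2]
    exact hW' l hl J i' hJ hi' _ _ m n2 a2
  · intro l hl J i' hJ hi' x y m
    simp only [lift, el3]
    exact hW' l hl J i' hJ hi' _ _ m n3 a3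

end Vale.Agent.P141.PL.H978
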