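import Vale.Agent.P141.PL.H978.CompCut
import Vale.Agent.P141.PL.H95.Root

/-!
# P141, polylog bound: `StZero`, the companions of the level `0`
-/

namespace Vale.Agent.P141.PL.H978

open Finset
open Vale.Agent.P141.PL.H95
open Vale.Agent.P141.H315 (Grid dot)
open Vale.Agent.P141.PL.H314 (ee_pos ee_le)
open Vale.Agent.P141.PL.H315 (cube3 Tri Nm atm e12 e13 e23 avg mx avg_prod_Nm_le mem_cube3 Nm_nonneg
  abs_le_mx mx_le card_cube3 avg_nonneg wN)

theorem cube3_zero (q : ℤ × ℤ × ℤ) : cube3 0 q = {q} := by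
  ext x
  rw [mem_cube3, H315.mem_iv, H315.mem_iv, H315.mem_iv, mem_singleton]
  simp only [pow_zero, Int.ediv_one]
  constructor
  · rintro ⟨h1, h2, h3⟩
    exact Prod.ext h1 (Prod.ext h2 h3)
  · rintro rfl
    exact ⟨rfl, rfl, rfl⟩

/-- On one point the norm is the absolute value. -/
theorem Nm_zero {e : ℝ} (q : ℤ × ℤ × ℤ) (f : ℤ × ℤ × ℤ → ℝ) : Nm e (cube3 0 q) f = |f q| := by
  have h1 : mx (cube3 0 q) f = |f q| := by
    apply le_antisymm
    · refine mx_le (abs_nonneg _) fun x hx => ?_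
      rw [cube3_zero, mem_singleton] at hx
      rw [hx]
    · exact abs_le_mx (by rw [cube3_zero, mem_singleton]) f
  have h2 : avg (cube3 0 q) (fun x => f x ^ 2) = |f q| ^ 2 := by
    rw [cube3_zero]
    unfold avg
    simp
  unfold Nm
  rw [h1, h2]
  rcases eq_or_lt_of_le (abs_nonneg (f q)) with h | h
  · rw [← h]
    by_cases he : e = 0
    · subst he
      norm_num
    · rw [Real.zero_rpow he, mul_zero]
  · rw [← Real.rpow_natCast, ← Real.rpow_mul h.le, ← Real.rpow_add h]
    have : ((2 : ℕ) : ℝ) * ((1 - e) / 2) + e = 1 := by push_cast; ring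
    rw [this, Real.rpow_one]

/-- A bounded function is uniform at the level of its bound. -/
theorem avg_mul_atm_le {e H : ℝ} (h0 : 0 ≤ e) (h1 : e ≤ 1) {G : Pt → ℝ} (hG : ∀ q, |G q| ≤ H)
    (l : ℕ) (p : Pt) (u : Tri) :
    |avg (cube3 l p) (fun q => G q * atm u q)| ≤ wN H e l p u := by
  have hH : 0 ≤ H := (abs_nonneg _).trans (hG (0, 0, 0))
  have h2 := avg_prod_Nm_le (Nat.zero_le l) h0 h1 u p
  simp only [Nm_zero] at h2
  unfold wN
  refine le_trans ?_ (mul_le_mul_of_nonneg_left h2 hH)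
  unfold avg
  rw [abs_mul, abs_of_nonneg (inv_nonneg.mpr (Nat.cast_nonneg _))]
  rw [mul_left_comm]
  refine mul_le_mul_of_nonneg_left ?_ (inv_nonneg.mpr (Nat.cast_nonneg _))
  refine (abs_sum_le_sum_abs _ _).trans ?_
  rw [mul_sum]
  refine sum_le_sum fun q _ => ?_
  rw [abs_mul]
  refine mul_le_mul (hG q) (le_of_eq ?_) (abs_nonneg _) hH
  unfold atm
  rw [abs_mul, abs_mul]

/-- **LEVEL 0** -/
theorem stZero : StZero := by
  refine ⟨2 ^ 14, by norm_num, fun n s j H F hn hF => ?_⟩
  have hH : 0 ≤ H := (abs_nonneg _).trans (hF 0)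
  have hlog : 0 ≤ Real.log n := Real.log_natCast_nonneg n
  have hdot : ∀ l x, 0 ≤ dot ((gr 7 s).cube l x) F F := fun l x =>
    sum_nonneg fun y _ => mul_self_nonneg _
  have h := comp_cut (n := n) (e := ee n) (δ := H) (C1 := 0) (s := s) (F := F) (V := fun _ => F) j
    le_rfl (fun k l _ _ p u => by
      refine avg_mul_atm_le (ee_pos n).le ((ee_le n).trans (by norm_num)) (fun q => ?_) l p u
      unfold lift cut
      split_ifs
      · exact hF _
      · simpa using hH)
    (fun k l x _ => by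
      have := hdot l x
      linarith)
    (fun l x m _ N _ => by
      rw [zero_mul]
      refine (sum_eq_zero fun i _ => ?_).le
      rw [sub_self]
      exact sum_eq_zero fun y _ => by simp)
  refine H321.Comp.mono h le_rfl ?_
  have h3 : 1 ≤ (2 + Real.log n) ^ 2 := one_le_pow₀ (by linarith)
  nlinarith

end Vale.Agent.P141.PL.H978
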